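import Crest.Agent.Lib_OT3.H1Rot

/-!
# Angular cells: stretching / compressing / rounding maps (helper1, S0175 skeleton)
-/

set_option autoImplicit false
set_option linter.unusedSectionVars false
open MeasureTheory Set
open scoped ENNReal

namespace Crest.Agent.OT3.H1

variable {E : Type*} [MeasurableSpace E] (A : RotAction E) (ang : E → ℝ) (N : ℕ)

/-- cell width -/
noncomputable def cw : ℝ := 2 * Real.pi / N

/-- position inside the cell, in `[0,1)` -/
noncomputable def fr (x : E) : ℝ := Int.fract (ang x / cw N)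

/-- the two halves of the cells (`ι = 0, 1`) -/
def Hh (ι : ℝ) : Set E := {x | ι / 2 ≤ fr ang N x ∧ fr ang N x < (ι + 1) / 2}

/-- stretching a half cell to the whole cell -/
noncomputable def St (ι : ℝ) (x : E) : E := A.R (cw N * (fr ang N x - ι)) x

/-- compressing a cell to one of its halves -/
noncomputable def Co (ι : ℝ) (x : E) : E := A.R (cw N * ((ι - fr ang N x) / 2)) x

/-- rotation by the multiple of the cell width closest to `ζ` (times a sign `σ`) -/
noncomputable def Rnd (ζ : E → ℝ) (σ : ℤ) (x : E) : E := A.R (cw N * ((σ * ⌊ζ x / cw N + 1 / 2⌋ : ℤ) : ℝ)) x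

variable {A ang N}

theorem cw_pos (hN : 0 < N) : 0 < cw N := by
  unfold cw; have : (0:ℝ) < N := Nat.cast_pos.2 hN; positivity

theorem N_mul_cw (hN : 0 < N) : (N : ℝ) * cw N = 2 * Real.pi := by
  unfold cw; have : (0:ℝ) < N := Nat.cast_pos.2 hN; field_simp

theorem measurable_fr (hang : Measurable ang) : Measurable (fr ang N) :=
  measurable_fract.comp (hang.div_const _)

theorem measurableSet_Hh (hang : Measurable ang) (ι : ℝ) : MeasurableSet (Hh ang N ι) :=
  (measurableSet_le measurable_const (measurable_fr hang)).inter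
    (measurableSet_lt (measurable_fr hang) measurable_const)

theorem measurable_St (hang : Measurable ang) (ι : ℝ) : Measurable (St A ang N ι) :=
  A.meas_twist (((measurable_fr hang).sub_const ι).const_mul _)

theorem measurable_Co (hang : Measurable ang) (ι : ℝ) : Measurable (Co A ang N ι) :=
  A.meas_twist ((((measurable_fr hang).const_sub ι).div_const 2).const_mul _)

theorem measurable_Rnd {ζ : E → ℝ} (hζ : Measurable ζ) (σ : ℤ) : Measurable (Rnd A N ζ σ) := by
  refine A.meas_twist (Measurable.const_mul ?_ _)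
  have h1 : Measurable (fun x => ⌊ζ x / cw N + 1 / 2⌋) := ((hζ.div_const _).add_const _).floor
  have h2 : Measurable (fun x => σ * ⌊ζ x / cw N + 1 / 2⌋) := h1.const_mul σ
  exact (measurable_from_top (f := fun n : ℤ => (n : ℝ))).comp h2

theorem Hh_one_eq_compl : Hh ang N 1 = (Hh ang N 0)ᶜ := by
  ext x
  have h0 := Int.fract_nonneg (ang x / cw N)
  have h1 := Int.fract_lt_one (ang x / cw N)
  simp only [Hh, fr, mem_ofPred_eq, mem_compl_iff, not_and, not_lt]
  constructor
  · rintro ⟨h, _⟩ _; linarith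
  · intro h; exact ⟨by have := h (by linarith); linarith, by linarith⟩

section equivariance
variable {X : Set E}
  (hequiv : ∀ x ∈ X, ∀ t, ∃ n : ℤ, ang (A.R t x) = ang x + t + n * (2 * Real.pi))
include hequiv

theorem fr_rot (hN : 0 < N) {x : E} (hx : x ∈ X) (t : ℝ) :
    fr ang N (A.R t x) = Int.fract ((ang x + t) / cw N) := by
  obtain ⟨n, hn⟩ := hequiv x hx t
  unfold fr
  have hw := cw_pos hN
  have : ang (A.R t x) / cw N = (ang x + t) / cw N + ((n * N : ℤ) : ℝ) := by
    rw [hn, ← N_mul_cw hN]; push_cast; field_simp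
  rw [this, Int.fract_add_intCast]

/-- rotating by an integer multiple of the cell width does not change `fr` -/
theorem fr_rot_int (hN : 0 < N) {x : E} (hx : x ∈ X) (m : ℤ) :
    fr ang N (A.R (cw N * m) x) = fr ang N x := by
  rw [fr_rot hequiv hN hx]
  have hw := cw_pos hN
  have : (ang x + cw N * m) / cw N = ang x / cw N + m := by field_simp
  rw [this, Int.fract_add_intCast]; rfl

theorem fr_St (hN : 0 < N) {x : E} (hx : x ∈ X) {ι : ℝ} (hι : ι = 0 ∨ ι = 1)
    (hH : x ∈ Hh ang N ι) : fr ang N (St A ang N ι x) = 2 * fr ang N x - ι := by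
  unfold St
  rw [fr_rot hequiv hN hx]
  have hw := cw_pos hN
  have e : (ang x + cw N * (fr ang N x - ι)) / cw N
      = (2 * fr ang N x - ι) + (⌊ang x / cw N⌋ : ℤ) := by
    have : ang x / cw N = fr ang N x + ⌊ang x / cw N⌋ := by
      unfold fr; rw [Int.fract]; ring
    have e2 : (ang x + cw N * (fr ang N x - ι)) / cw N = ang x / cw N + (fr ang N x - ι) := by
      field_simp
    rw [e2]; linarith
  rw [e, Int.fract_add_intCast, Int.fract_eq_self]
  obtain ⟨h1, h2⟩ := hH
  constructor <;> linarith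

theorem Co_St (hN : 0 < N) {x : E} (hx : x ∈ X) {ι : ℝ} (hι : ι = 0 ∨ ι = 1)
    (hH : x ∈ Hh ang N ι) : Co A ang N ι (St A ang N ι x) = x := by
  have h := fr_St hequiv hN hx hι hH
  unfold Co
  rw [h]
  unfold St
  rw [← A.add]
  have : cw N * ((ι - (2 * fr ang N x - ι)) / 2) + cw N * (fr ang N x - ι) = 0 := by ring
  rw [this, A.zero]

theorem fr_Co (hN : 0 < N) {x : E} (hx : x ∈ X) {ι : ℝ} (hι : ι = 0 ∨ ι = 1) :
    fr ang N (Co A ang N ι x) = (ι + fr ang N x) / 2 := by
  unfold Co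
  rw [fr_rot hequiv hN hx]
  have hw := cw_pos hN
  have e : (ang x + cw N * ((ι - fr ang N x) / 2)) / cw N
      = (ι + fr ang N x) / 2 + (⌊ang x / cw N⌋ : ℤ) := by
    have : ang x / cw N = fr ang N x + ⌊ang x / cw N⌋ := by
      unfold fr; rw [Int.fract]; ring
    have e2 : (ang x + cw N * ((ι - fr ang N x) / 2)) / cw N
        = ang x / cw N + ((ι - fr ang N x) / 2) := by
      field_simp
    rw [e2]; linarith
  have h0 : 0 ≤ fr ang N x := Int.fract_nonneg _
  have h1 : fr ang N x < 1 := Int.fract_lt_one _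
  rw [e, Int.fract_add_intCast, Int.fract_eq_self]
  rcases hι with rfl | rfl <;> constructor <;> linarith

theorem St_Co (hN : 0 < N) {x : E} (hx : x ∈ X) {ι : ℝ} (hι : ι = 0 ∨ ι = 1) :
    St A ang N ι (Co A ang N ι x) = x := by
  have h := fr_Co hequiv hN hx hι
  unfold St
  rw [h]
  unfold Co
  rw [← A.add]
  have : cw N * ((ι + fr ang N x) / 2 - ι) + cw N * ((ι - fr ang N x) / 2) = 0 := by ring
  rw [this, A.zero]

theorem Rnd_mem_Hh_iff (hN : 0 < N) {x : E} (hx : x ∈ X) (ζ : E → ℝ) (σ : ℤ) (ι : ℝ) :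
    Rnd A N ζ σ x ∈ Hh ang N ι ↔ x ∈ Hh ang N ι := by
  unfold Hh Rnd
  simp only [mem_ofPred_eq]
  rw [fr_rot_int hequiv hN hx]

/-- **Stretching pushes the half-cell measure to half of the measure.** -/
theorem map_St {ν : Measure E} [SFinite ν] (hν : RotInv A ν) (hX : ∀ᵐ x ∂ν, x ∈ X)
    (hang : Measurable ang) (hN : 0 < N) {ι : ℝ} (hι : ι = 0 ∨ ι = 1) :
    (ν.restrict (Hh ang N ι)).map (St A ang N ι) = (2⁻¹ : ℝ≥0∞) • ν := by
  refine map_rot_general hν hX (((measurable_fr hang).sub_const ι).const_mul _)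
    (measurableSet_Hh hang ι) _ (by simp) ?_
  intro x hx Γ hΓ hper
  have hw := cw_pos hN
  have := cell_period hΓ (ang x) (cw N) hw ι hι N hN (by rw [N_mul_cw hN]; exact hper)
  rw [N_mul_cw hN] at this
  rw [← this]
  refine lintegral_congr fun t => ?_
  unfold cellFun Hh
  simp only [indicator_apply, mem_ofPred_eq, fr_rot hequiv hN hx]

/-- **Compressing pushes half of the measure to the half-cell measure.** -/
theorem map_Co {ν : Measure E} [SFinite ν] (hν : RotInv A ν) (hX : ∀ᵐ x ∂ν, x ∈ X)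
    (hang : Measurable ang) (hN : 0 < N) {ι : ℝ} (hι : ι = 0 ∨ ι = 1) :
    ((2⁻¹ : ℝ≥0∞) • ν).map (Co A ang N ι) = ν.restrict (Hh ang N ι) := by
  rw [← map_St hequiv hν hX hang hN hι, Measure.map_map (measurable_Co hang ι) (measurable_St hang ι)]
  have : (Co A ang N ι ∘ St A ang N ι) =ᵐ[ν.restrict (Hh ang N ι)] id := by
    have h1 : ∀ᵐ x ∂(ν.restrict (Hh ang N ι)), x ∈ X := ae_restrict_of_ae hX
    have h2 : ∀ᵐ x ∂(ν.restrict (Hh ang N ι)), x ∈ Hh ang N ι :=
      ae_restrict_mem (measurableSet_Hh hang ι)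
    filter_upwards [h1, h2] with x hx hH
    exact Co_St hequiv hN hx hι hH
  rw [Measure.map_congr this, Measure.map_id]

/-- the same, in the form `ν.map Co = 2 • ν|H`. -/
theorem map_Co' {ν : Measure E} [SFinite ν] (hν : RotInv A ν) (hX : ∀ᵐ x ∂ν, x ∈ X)
    (hang : Measurable ang) (hN : 0 < N) {ι : ℝ} (hι : ι = 0 ∨ ι = 1) :
    ν.map (Co A ang N ι) = (2 : ℝ≥0∞) • ν.restrict (Hh ang N ι) := by
  rw [← map_Co hequiv hν hX hang hN hι, Measure.map_smul, smul_smul,
    ENNReal.mul_inv_cancel (by norm_num) (by norm_num), one_smul]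

/-- **Rounded twists preserve the half-cell measures.** -/
theorem map_Rnd {ν : Measure E} [SFinite ν] (hν : RotInv A ν) (hX : ∀ᵐ x ∂ν, x ∈ X)
    (hang : Measurable ang) (hN : 0 < N) {ζ : E → ℝ} (hζ : Measurable ζ)
    (hinv : ∀ x ∈ X, ∀ t, ζ (A.R t x) = ζ x) (σ : ℤ) (ι : ℝ) :
    (ν.restrict (Hh ang N ι)).map (Rnd A N ζ σ) = ν.restrict (Hh ang N ι) := by
  have hm := measurable_Rnd (A := A) (N := N) hζ σ
  have h1 : ν.map (Rnd A N ζ σ) = ν := by
    have h1 : Measurable (fun x => ⌊ζ x / cw N + 1 / 2⌋) := ((hζ.div_const _).add_const _).floor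
    have h2 : Measurable (fun x => σ * ⌊ζ x / cw N + 1 / 2⌋) := h1.const_mul σ
    refine map_twist hν hX (Measurable.const_mul
      ((measurable_from_top (f := fun n : ℤ => (n : ℝ))).comp h2) _) ?_
    intro x hx t
    simp only [hinv x hx t]
  have h2 : ν.restrict (Rnd A N ζ σ ⁻¹' Hh ang N ι) = ν.restrict (Hh ang N ι) := by
    refine Measure.restrict_congr_set ?_
    filter_upwards [hX] with x hx
    exact propext (Rnd_mem_Hh_iff hequiv hN hx ζ σ ι)
  conv_lhs => rw [← h2]
  rw [← Measure.restrict_map hm (measurableSet_Hh hang ι), h1]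

end equivariance

/-! ### all these maps are rotations by small angles -/

theorem St_small (hN : 0 < N) {ι : ℝ} (hι : ι = 0 ∨ ι = 1) (x : E) :
    ∃ δ : ℝ, |δ| ≤ cw N ∧ St A ang N ι x = A.R δ x := by
  refine ⟨cw N * (fr ang N x - ι), ?_, rfl⟩
  have hw := cw_pos hN
  have h0 : 0 ≤ fr ang N x := Int.fract_nonneg _
  have h1 : fr ang N x < 1 := Int.fract_lt_one _
  rw [abs_mul, abs_of_pos hw]
  have : |fr ang N x - ι| ≤ 1 := by
    rw [abs_le]; rcases hι with rfl | rfl <;> constructor <;> linarith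
  nlinarith

theorem Co_small (hN : 0 < N) {ι : ℝ} (hι : ι = 0 ∨ ι = 1) (x : E) :
    ∃ δ : ℝ, |δ| ≤ cw N ∧ Co A ang N ι x = A.R δ x := by
  refine ⟨cw N * ((ι - fr ang N x) / 2), ?_, rfl⟩
  have hw := cw_pos hN
  have h0 : 0 ≤ fr ang N x := Int.fract_nonneg _
  have h1 : fr ang N x < 1 := Int.fract_lt_one _
  rw [abs_mul, abs_of_pos hw]
  have : |(ι - fr ang N x) / 2| ≤ 1 := by
    rw [abs_le]; rcases hι with rfl | rfl <;> constructor <;> linarith
  nlinarith

end Crest.Agent.OT3.H1
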